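import Vale.Agent.P275.H341.Psh

/-!
# P275, row B: the coefficients of the logarithmic derivative
-/

namespace Vale.Agent.P275.R2.H114

open Filter Topology Asymptotics Vale.Agent.P275.H341

theorem coeff_XD (a : ℕ → ℂ) (k : ℕ) :
    PowerSeries.coeff k (PowerSeries.X * PowerSeries.derivative ℂ (PowerSeries.mk a)) =
      k * a k := by
  cases k with
  | zero => simp
  | succ n =>
    rw [PowerSeries.coeff_succ_X_mul, PowerSeries.coeff_derivative, PowerSeries.coeff_mk]
    push_cast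
    ring

theorem ld_zero (a : ℕ → ℂ) : ld a 0 = 0 := by
  simp [ld]

theorem sum_ld (a : ℕ → ℂ) (h : a 0 = 1) (k : ℕ) :
    ∑ p ∈ Finset.HasAntidiagonal.antidiagonal k, a p.1 * ld a p.2 = k * a k := by
  have h2 : PowerSeries.mk a * (PowerSeries.mk a)⁻¹ = 1 :=
    PowerSeries.mul_inv_cancel _ (by simp [h])
  have h1 : PowerSeries.mk a * (PowerSeries.X * PowerSeries.derivative ℂ (PowerSeries.mk a) *
      (PowerSeries.mk a)⁻¹) = PowerSeries.X * PowerSeries.derivative ℂ (PowerSeries.mk a) := by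
    calc _ = (PowerSeries.X * PowerSeries.derivative ℂ (PowerSeries.mk a)) *
          (PowerSeries.mk a * (PowerSeries.mk a)⁻¹) := by ring
      _ = _ := by rw [h2, mul_one]
  have h3 := congrArg (PowerSeries.coeff k) h1
  rw [PowerSeries.coeff_mul, coeff_XD] at h3
  rw [← h3]
  refine Finset.sum_congr rfl fun p _ => ?_
  rw [PowerSeries.coeff_mk]
  rfl

/-- the recursion -/
theorem ld_eq (a : ℕ → ℂ) (h : a 0 = 1) (k : ℕ) :
    ld a k - k * a k = -∑ p ∈ (Finset.HasAntidiagonal.antidiagonal k).filter fun p => p.1 ≠ 0 ∧ p.2 ≠ 0,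
      a p.1 * ld a p.2 := by
  rcases Nat.eq_zero_or_pos k with rfl | hk
  · simp [ld_zero, Finset.sum_filter]
  have h1 := sum_ld a h k
  have h2 : ∑ p ∈ Finset.HasAntidiagonal.antidiagonal k, a p.1 * ld a p.2 =
      ld a k + ∑ p ∈ (Finset.HasAntidiagonal.antidiagonal k).filter fun p => p.1 ≠ 0 ∧ p.2 ≠ 0,
        a p.1 * ld a p.2 := by
    have hmem : ((0, k) : ℕ × ℕ) ∈ Finset.HasAntidiagonal.antidiagonal k := by simp
    rw [← Finset.add_sum_erase _ _ hmem]
    simp only [h, one_mul]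
    congr 1
    symm
    refine Finset.sum_subset ?_ ?_
    · intro p hp
      rw [Finset.mem_filter] at hp
      rw [Finset.mem_erase]
      refine ⟨?_, hp.1⟩
      rintro rfl
      exact hp.2.1 rfl
    · intro p hp hq
      rw [Finset.mem_erase, Finset.HasAntidiagonal.mem_antidiagonal] at hp
      rw [Finset.mem_filter, Finset.HasAntidiagonal.mem_antidiagonal] at hq
      by_cases h0 : p.2 = 0
      · rw [h0, ld_zero, mul_zero]
      · exfalso
        apply hq
        refine ⟨hp.2, ?_, h0⟩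
        intro h00
        apply hp.1
        ext
        · exact h00
        · have := hp.2
          simp only
          omega
  rw [h2] at h1
  linear_combination h1

theorem pow_isBigO {m n : ℕ} (h : m ≤ n) :
    (fun x : ℝ => x ^ m) =O[atTop] fun x : ℝ => x ^ n := by
  refine IsBigO.of_bound 1 ?_
  filter_upwards [eventually_ge_atTop (1 : ℝ)] with x hx
  rw [one_mul, Real.norm_of_nonneg (by positivity), Real.norm_of_nonneg (by positivity)]
  exact pow_le_pow_right₀ hx h

theorem expo {E i j k : ℕ} (h : i + j = k) (hi : i ≠ 0) (hj : j ≠ 0) :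
    E * (i * (i + 1)) + E * (j * (j + 1)) ≤ E * (k * (k + 1)) - 2 * E := by
  have h1 : i * (i + 1) + j * (j + 1) + 2 ≤ k * (k + 1) := by
    have hi' : 1 ≤ i := Nat.one_le_iff_ne_zero.2 hi
    have hj' : 1 ≤ j := Nat.one_le_iff_ne_zero.2 hj
    have hij : 1 ≤ i * j := Nat.mul_pos hi' hj'
    subst h
    nlinarith
  have h2 := Nat.mul_le_mul_left E h1
  have h3 : E * (i * (i + 1) + j * (j + 1) + 2) =
    E * (i * (i + 1)) + E * (j * (j + 1)) + 2 * E := by ring
  omega

/-- the difference, given the bound at the smaller places -/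
theorem diff_O (a : ℝ → ℕ → ℂ) (E : ℕ) (h0 : ∀ x, a x 0 = 1)
    (ha : ∀ k, (fun x => a x k) =O[atTop] fun x : ℝ => x ^ (E * (k * (k + 1)))) (k : ℕ)
    (hl : ∀ j < k, (fun x => ld (a x) j) =O[atTop] fun x : ℝ => x ^ (E * (j * (j + 1)))) :
    (fun x => ld (a x) k - k * a x k) =O[atTop]
      fun x : ℝ => x ^ (E * (k * (k + 1)) - 2 * E) := by
  have h1 : (fun x => ld (a x) k - k * a x k) = fun x =>
      -∑ p ∈ (Finset.HasAntidiagonal.antidiagonal k).filter fun p => p.1 ≠ 0 ∧ p.2 ≠ 0,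
        a x p.1 * ld (a x) p.2 := by
    funext x
    exact ld_eq (a x) (h0 x) k
  rw [h1]
  refine IsBigO.neg_left ?_
  refine IsBigO.fun_sum ?_
  intro p hp
  rw [Finset.mem_filter, Finset.HasAntidiagonal.mem_antidiagonal] at hp
  have h2 : p.2 < k := by
    have := hp.1
    have := hp.2.1
    omega
  have h3 := (ha p.1).mul (hl p.2 h2)
  refine h3.trans ?_
  have h4 : (fun x : ℝ => x ^ (E * (p.1 * (p.1 + 1))) * x ^ (E * (p.2 * (p.2 + 1)))) =
      fun x : ℝ => x ^ (E * (p.1 * (p.1 + 1)) + E * (p.2 * (p.2 + 1))) := by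
    funext x
    rw [pow_add]
  rw [h4]
  exact pow_isBigO (expo hp.1 hp.2.1 hp.2.2)

theorem ld_O (a : ℝ → ℕ → ℂ) (E : ℕ) (h0 : ∀ x, a x 0 = 1)
    (ha : ∀ k, (fun x => a x k) =O[atTop] fun x : ℝ => x ^ (E * (k * (k + 1)))) (k : ℕ) :
    (fun x => ld (a x) k) =O[atTop] fun x : ℝ => x ^ (E * (k * (k + 1))) := by
  induction k using Nat.strong_induction_on with
  | _ k ih =>
    have h1 := (diff_O a E h0 ha k ih).trans (pow_isBigO (Nat.sub_le _ _))
    have h2 := (ha k).const_mul_left (k : ℂ)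
    have h3 := h1.add h2
    refine h3.congr_left ?_
    intro x
    ring

theorem rowB (a : ℝ → ℕ → ℂ) (E : ℕ) (h0 : ∀ x, a x 0 = 1)
    (ha : ∀ k, (fun x => a x k) =O[atTop] fun x : ℝ => x ^ (E * (k * (k + 1)))) (k : ℕ)
    (hk : 1 ≤ k) :
    (fun x => ld (a x) k - k * a x k) =O[atTop]
      fun x : ℝ => x ^ (E * (k * (k + 1)) - 2 * E) :=
  diff_O a E h0 ha k fun j _ => ld_O a E h0 ha j

end Vale.Agent.P275.R2.H114
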